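import Vale.Agent.P207.H118.EDefs

/-!
# P207: a condition with the Ricci curvature and the topological entropy
-/

open scoped Manifold ContDiff ENNReal
open Bundle MeasureTheory Set Filter

noncomputable section

namespace Vale.Agent.P207F

open Vale.Agent.P255 (RMetric innerAt coefIn Gam Riem IsGeo)

/-- Negative curvature, `Ric ≥ -ρ` and `5 h_top² > (5n - 6) ρ` for some `ρ`. -/
def RicciEntropyPinched {n : ℕ} {M : Type} [TopologicalSpace M] [ChartedSpace (EV n) M]
    [IsManifold 𝓘(ℝ, EV n) ∞ M] (g : RMetric (EV n) M) : Prop :=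
  NegCurvature g ∧ ∃ ρ : ℝ, (∀ p, -ρ ≤ ricUT g p) ∧
    ENNReal.ofReal ((5 * n - 6) * ρ) < 5 * hTop g ^ 2

end Vale.Agent.P207F
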