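import Vale.Agent.P207.H248.AllOf
import Vale.Agent.P207.N4.Geo.CoreG

/-!
# P207: dimension three and all the classes of higher dimension, from the logic
-/

open scoped Manifold ContDiff ENNReal

noncomputable section

namespace Vale.Agent.P207F.QN

open Vale.Agent.P255 (RMetric)
open Vale.Agent.P207F

variable {n : ℕ} {M : Type} [TopologicalSpace M] [CompactSpace M] [T2Space M] [ConnectedSpace M]
  [ChartedSpace (EV n) M] [IsManifold 𝓘(ℝ, EV n) ∞ M] [MeasurableSpace M] [BorelSpace M]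

/-- `all_of` with one more class. -/
theorem all_of2 (hn : 3 ≤ n)
    (hH : ∀ [P207.N4.Dim], P207.N4.LogicH (P207.N4.HQ P207.N4.Dim.m))
    (hP : ∀ [P207.N4.Dim], P207.N4.LogicP) (hB : ∀ [P207.N4.Dim], P207.N4.LogicB)
    (hG : ∀ [P207.N4.Dim], P207.N4.LogicG) :
    (∀ g : RMetric (EV n) M, WellDefined (stdB n) g) ∧
    ∀ g : RMetric (EV n) M, NegCurvature g →
      (n = 3 ∨ Bunched g ∨ VecQuarterPinched g ∨ EntropyPinched g ∨ RicciPinched g ∨
        RicciEntropyPinched g) →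
      hLiou (stdB n) g ≤ hTop g ∧
      (hLiou (stdB n) g = hTop g ↔ LocSymmetric g) ∧
      (hLiou (stdB n) g = hTop g ↔ ∃ κ : ℝ, 0 < κ ∧ ConstCurvature g κ) := by
  obtain ⟨h1, h2⟩ := final_n (M := M) (by omega : 2 ≤ n)
    (P := fun g => NegCurvature g ∧
      (n = 3 ∨ Bunched g ∨ VecQuarterPinched g ∨ EntropyPinched g ∨ RicciPinched g ∨
        RicciEntropyPinched g))
    (fun _ h => h.1) (by
      rintro g ⟨hN, h3 | hQ | hQ | hQ | hQ | hQ⟩ φ μ m hφ hμ hm heq
      · subst h3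
        exact P207.N3.core_N3 g hN φ μ m hφ hμ hm heq
      · exact P207.N4.core_of_bunched_n hn hB g (P207F.negCurvature_iff.1 hN) hQ φ μ m hφ hμ hm heq
      · exact P207.N4.core_of_pquarter_n hn hP g hQ φ μ m hφ hμ hm heq
      · exact P207.N4.core_of_entropy_n hn hH g hQ φ μ m hφ hμ hm heq
      · exact P207.N4.core_of_ricci_n hn hH g hQ φ μ m hφ hμ hm heq
      · exact P207.N4.core_of_ricent_n hn hG g hQ φ μ m hφ hμ hm heq)
  exact ⟨h1, fun g hg hc => (h2 g ⟨hg, hc⟩).2⟩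

end Vale.Agent.P207F.QN
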