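import Vale.Agent.P207.FDefs3

/-!
# P207: pinching conditions which involve the topological entropy
-/

open scoped Manifold ContDiff ENNReal
open Bundle MeasureTheory Set Filter

noncomputable section

namespace Vale.Agent.P207F

open Vale.Agent.P255 (RMetric innerAt coefIn Gam Riem IsGeo)

section

variable {E : Type} [NormedAddCommGroup E] [NormedSpace ℝ E] {M : Type} [TopologicalSpace M]
  [ChartedSpace E M] [IsManifold 𝓘(ℝ, E) ∞ M]

/-- All sectional curvatures are at most `c`. -/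
def SecLE (g : RMetric E M) (c : ℝ) : Prop :=
  ∀ (a : M), ∀ u ∈ (chartAt E a).target, ∀ v w : E, LinearIndependent ℝ ![v, w] →
    coefIn g a u (Riem (coefIn g a) u v w w) v ≤ c * gramDet g a u v w

/-- All sectional curvatures are at least `c`. -/
def SecGE (g : RMetric E M) (c : ℝ) : Prop :=
  ∀ (a : M), ∀ u ∈ (chartAt E a).target, ∀ v w : E, LinearIndependent ℝ ![v, w] →
    c * gramDet g a u v w ≤ coefIn g a u (Riem (coefIn g a) u v w w) v

end

/-- The Ricci curvature `Ric(v,v)` of a unit vector `v`: the trace of `w ↦ R(w,v)v` (components in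
the chart at the base point). -/
def ricUT {n : ℕ} {M : Type} [TopologicalSpace M] [ChartedSpace (EV n) M]
    [IsManifold 𝓘(ℝ, EV n) ∞ M] (g : RMetric (EV n) M) (p : UT g) : ℝ :=
  ∑ i, (Riem (coefIn g p.pt) (chartAt (EV n) p.pt p.pt) (stdB n i) p.vec p.vec) i

/-- One of the four conditions: `g` is strictly quarter-pinched; or `K ≤ -a²` and `h_L < n a` for
some `a > 0`; or `K ≤ -a²` and `(n - 1) ∫ Ric(v,v) dm_L > -n² a²` for some `a > 0`; or
`-b² ≤ K < 0` and `2 h_top > (2n - 3) b` for some `b > 0`. -/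
def EntropyPinched {n : ℕ} {M : Type} [TopologicalSpace M] [ChartedSpace (EV n) M]
    [IsManifold 𝓘(ℝ, EV n) ∞ M] [MeasurableSpace M] (g : RMetric (EV n) M) : Prop :=
  QuarterPinched g ∨
  (∃ a : ℝ, 0 < a ∧ SecLE g (-a ^ 2) ∧ hLiou (stdB n) g < ENNReal.ofReal (n * a)) ∨
  (∃ a : ℝ, 0 < a ∧ SecLE g (-a ^ 2) ∧
    -(n ^ 2 * a ^ 2) < (n - 1) * ∫ p, ricUT g p ∂(liou (stdB n) g)) ∨
  (NegCurvature g ∧ ∃ b : ℝ, 0 < b ∧ SecGE g (-b ^ 2) ∧
    ENNReal.ofReal ((2 * n - 3) * b) < 2 * hTop g)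

end Vale.Agent.P207F
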