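import Vale.Agent.P207.H118.SDefs

/-!
# P207: a pinching condition with the average of the Ricci curvature and a lower bound
-/

open scoped Manifold ContDiff ENNReal
open Bundle MeasureTheory Set Filter

noncomputable section

namespace Vale.Agent.P207F

open Vale.Agent.P255 (RMetric innerAt coefIn Gam Riem IsGeo)

/-- `-b² ≤ K < 0` and `2 ∫ Ric(v,v) dm_L < -(2n - 3) b²` for some `b > 0`. -/
def RicciPinched {n : ℕ} {M : Type} [TopologicalSpace M] [ChartedSpace (EV n) M]
    [IsManifold 𝓘(ℝ, EV n) ∞ M] [MeasurableSpace M] (g : RMetric (EV n) M) : Prop :=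
  NegCurvature g ∧ ∃ b : ℝ, 0 < b ∧ SecGE g (-b ^ 2) ∧
    2 * ∫ p, ricUT g p ∂(liou (stdB n) g) < -((2 * n - 3) * b ^ 2)

end Vale.Agent.P207F
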