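import Vale.Agent.P207.H118.EDefs

/-!
# P207: a pointwise pinching condition
-/

open scoped Manifold ContDiff
open Bundle Set Filter

noncomputable section

namespace Vale.Agent.P207F

open Vale.Agent.P255 (RMetric innerAt coefIn Gam Riem IsGeo)

section

variable {E : Type} [NormedAddCommGroup E] [NormedSpace ℝ E] {M : Type} [TopologicalSpace M]
  [ChartedSpace E M] [IsManifold 𝓘(ℝ, E) ∞ M]

/-- `A K(v',w) ≤ K(v,w)` for any two planes `span(v,w)`, `span(v',w)` at one point with a common
vector `w` (`K` is the sectional curvature, multiplied out). -/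
def VecPinched (A : ℝ) (g : RMetric E M) : Prop :=
  ∀ (a : M), ∀ u ∈ (chartAt E a).target, ∀ v v' w : E, LinearIndependent ℝ ![v, w] →
    LinearIndependent ℝ ![v', w] →
    A * (coefIn g a u (Riem (coefIn g a) u v' w w) v' * gramDet g a u v w) ≤
      coefIn g a u (Riem (coefIn g a) u v w w) v * gramDet g a u v' w

end

/-- Negative curvature, and `ρ² K(v',w) ≤ K(v,w)` for planes at one point with a common vector,
for some `ρ ≥ 1` with `(n - 2) (ρ² - 2) < ρ` (for example `ρ² = 2`). -/
def PointPinched {n : ℕ} {M : Type} [TopologicalSpace M] [ChartedSpace (EV n) M]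
    [IsManifold 𝓘(ℝ, EV n) ∞ M] (g : RMetric (EV n) M) : Prop :=
  NegCurvature g ∧ ∃ ρ : ℝ, 1 ≤ ρ ∧ (n - 2) * (ρ ^ 2 - 2) < ρ ∧ VecPinched (ρ ^ 2) g

end Vale.Agent.P207F
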