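import Vale.Agent.P207.H118.RDefs

/-!
# P207: strict pointwise quarter pinching
-/

open scoped Manifold ContDiff
open Bundle Set Filter

noncomputable section

namespace Vale.Agent.P207F

open Vale.Agent.P255 (RMetric innerAt coefIn Gam Riem IsGeo)

variable {E : Type} [NormedAddCommGroup E] [NormedSpace ℝ E] {M : Type} [TopologicalSpace M]
  [ChartedSpace E M] [IsManifold 𝓘(ℝ, E) ∞ M]

/-- Strict quarter pinching at each point: `-(4 k) < K ≤ -k` for all sectional curvatures at the
point, with some `k > 0` which depends on the point. -/
def PointQuarterPinched (g : RMetric E M) : Prop :=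
  ∀ (a : M), ∀ u ∈ (chartAt E a).target, ∃ k : ℝ, 0 < k ∧ ∀ v w : E,
    LinearIndependent ℝ ![v, w] →
      -(4 * k) * gramDet g a u v w < coefIn g a u (Riem (coefIn g a) u v w w) v ∧
      coefIn g a u (Riem (coefIn g a) u v w w) v ≤ -k * gramDet g a u v w

/-- Strict quarter pinching at each tangent vector: negative curvature, and `4 K(v',w) < K(v,w)`
for any two planes `span(v,w)`, `span(v',w)` at one point with a common vector `w` (`K` is the
sectional curvature, multiplied out). -/
def VecQuarterPinched (g : RMetric E M) : Prop :=
  NegCurvature g ∧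
  ∀ (a : M), ∀ u ∈ (chartAt E a).target, ∀ v v' w : E, LinearIndependent ℝ ![v, w] →
    LinearIndependent ℝ ![v', w] →
    4 * (coefIn g a u (Riem (coefIn g a) u v' w w) v' * gramDet g a u v w) <
      coefIn g a u (Riem (coefIn g a) u v w w) v * gramDet g a u v' w

/-- strictly quarter-pinched metrics are strictly quarter-pinched at each point -/
theorem QuarterPinched.point {g : RMetric E M} (h : QuarterPinched g) :
    PointQuarterPinched g := by
  obtain ⟨k, hk, h⟩ := h
  exact fun a u hu => ⟨k, hk, h a u hu⟩

end Vale.Agent.P207F
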